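import Vale.Agent.P166.Haar2.Formula

/-!
Finitely many atoms with positive weights, and the algebra of block overlaps along a path.
-/

noncomputable section

open MeasureTheory
open scoped BigOperators

namespace Vale.Agent.P166.Haar2

open Vale.Agent.P157.Parisi (IsPath siteValue weight)
open Vale.Agent.P157.Parisi.Full (IsFieldPath)

/-- `K + 1` atoms in increasing order with positive weights. -/
structure Atoms (K : ℕ) where
  a : Fin (K + 1) → ℝ
  c : Fin (K + 1) → ℝ
  mono : StrictMono a
  pos : ∀ k, 0 < c k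
  sum_one : ∑ k, c k = 1

namespace Atoms

variable {K : ℕ} (A : Atoms K)

/-- The measure. -/
def law : Measure ℝ := ∑ k, ENNReal.ofReal (A.c k) • Measure.dirac (A.a k)

/-- The mean. -/
def mean : ℝ := ∑ k, A.c k * A.a k

/-- The top atom. -/
def top : ℝ := A.a (Fin.last K)

/-- The weight of the top atom. -/
def ctop : ℝ := A.c (Fin.last K)

/-- The distance to the top atom. -/
def gapTop (k : Fin (K + 1)) : ℝ := A.top - A.a k

/-- Atoms multiplied by a positive factor. -/
def scale (t : ℝ) (ht : 0 < t) : Atoms K where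
  a k := t * A.a k
  c := A.c
  mono := fun _ _ h => mul_lt_mul_of_pos_left (A.mono h) ht
  pos := A.pos
  sum_one := A.sum_one

/-- The share of block `k` per unit of the top block's eigenvalue `y`. -/
def share (k : Fin (K + 1)) (y : ℝ) : ℝ := A.c k / (A.ctop + A.gapTop k * y)

/-- The derivative of `y * share k y`. -/
def dshare (k : Fin (K + 1)) (y : ℝ) : ℝ := A.c k * A.ctop / (A.ctop + A.gapTop k * y) ^ 2

/-- The total eigenvalue when the top block has eigenvalue `y`. -/
def total (y : ℝ) : ℝ := y * ∑ k, A.share k y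

/-- The inverse of `total`. -/
def topOf (d : ℝ) : ℝ := sSup {y : ℝ | 0 ≤ y ∧ A.total y ≤ max d 0}

/-- The eigenvalue of block `k` when the total is `d`. -/
def blockOf (k : Fin (K + 1)) (d : ℝ) : ℝ := A.topOf d * A.share k (A.topOf d)

/-- The derivative of `blockOf k`. -/
def dblockOf (k : Fin (K + 1)) (d : ℝ) : ℝ :=
  A.dshare k (A.topOf d) / ∑ j, A.dshare j (A.topOf d)

/-- The R-transform continued past saturation. -/
def rA (d : ℝ) : ℝ :=
  (∑ k, A.a k * A.share k (A.topOf d)) / ∑ k, A.share k (A.topOf d)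

/-- The derivative of `d ↦ d * rA d`. -/
def dpsi (d : ℝ) : ℝ := ∑ k, A.a k * A.dblockOf k d

/-- The energy functional. -/
def funA {r : ℕ} (m : Fin r → ℝ) (q : Fin (r + 1) → ℝ) : ℝ :=
  1 / 2 * ∫ u in (0 : ℝ)..1, A.rA (dfun m q u)

end Atoms

/-- An element of the algebra of a path: a diagonal value and a value at each level. -/
structure El (r : ℕ) where
  s : ℝ
  v : Fin (r + 1) → ℝ

namespace El

variable {r : ℕ}

/-- The mass above level `p`, seen from `p`. -/
def upMass (m : Fin r → ℝ) (p : Fin (r + 1)) : ℝ := (Fin.snoc m 1 : Fin (r + 1) → ℝ) p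

/-- The eigenvalue at depth `p`. -/
def eig (m : Fin r → ℝ) (x : El r) (p : Fin (r + 1)) : ℝ :=
  x.s - (∑ l, if p < l then weight m l * x.v l else 0) - upMass m p * x.v p

/-- The product: the overlap of products averaged over the cascade. -/
def mul (m : Fin r → ℝ) (x y : El r) : El r where
  s := x.s * y.s - ∑ l, weight m l * x.v l * y.v l
  v p := x.s * y.v p + x.v p * y.s - (∑ l, if l ≤ p then weight m l * x.v l * y.v l else 0) -
    upMass m p * x.v p * y.v p -
    ∑ l, if p < l then weight m l * (x.v l * y.v p + x.v p * y.v l) else 0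

/-- Multiplication by a number. -/
def smul (c : ℝ) (x : El r) : El r := ⟨c * x.s, fun p => c * x.v p⟩

/-- The distance in mean. -/
def dist (m : Fin r → ℝ) (x y : El r) : ℝ :=
  |x.s - y.s| + ∑ p, weight m p * |x.v p - y.v p|

/-- The element of an overlap path. -/
def ofPath (q : Fin (r + 1) → ℝ) : El r := ⟨1, q⟩

/-- `f` of an element, `f1` the derivative of `f`. -/
def calc' (m : Fin r → ℝ) (f f1 : ℝ → ℝ) (x : El r) : El r where
  s := f (eig m x (Fin.last r)) + (∑ i : Fin r,
    (f (eig m x i.castSucc) - f (eig m x i.succ)) / m i) + f1 (eig m x 0) * x.v 0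
  v p := f1 (eig m x 0) * x.v 0 + ∑ i : Fin r,
    if i.val < p.val then (f (eig m x i.castSucc) - f (eig m x i.succ)) / m i else 0

/-- A covariance path: monotone between `0` and the diagonal value. -/
structure IsCov (x : El r) : Prop where
  mono : Monotone x.v
  nonneg : 0 ≤ x.v 0
  le : x.v (Fin.last r) ≤ x.s

end El

namespace Atoms

variable {K : ℕ} (A : Atoms K) {r : ℕ}

/-- The overlap path of block `k` attached to an overlap path. -/
def blockEl (m : Fin r → ℝ) (q : Fin (r + 1) → ℝ) (k : Fin (K + 1)) : El r :=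
  El.calc' m (A.blockOf k) (A.dblockOf k) (El.ofPath q)

/-- The covariance of one coordinate of the top block, times `N`. -/
def coordEl (m : Fin r → ℝ) (q : Fin (r + 1) → ℝ) : El r :=
  El.smul A.ctop⁻¹ (A.blockEl m q (Fin.last K))

end Atoms

/-- `u ↦ log (1 + θ u)`. -/
def logF (θ u : ℝ) : ℝ := Real.log (1 + θ * u)

/-- Its derivative. -/
def logF1 (θ u : ℝ) : ℝ := θ / (1 + θ * u)

/-- `u ↦ u / (1 + θ u)`. -/
def dampF (θ u : ℝ) : ℝ := u / (1 + θ * u)

/-- Its derivative. -/
def dampF1 (θ u : ℝ) : ℝ := 1 / (1 + θ * u) ^ 2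

/-- The value of a damped Gaussian coordinate on a cascade. -/
def quadV {r : ℕ} (m : Fin r → ℝ) (θ : ℝ) (P : El r) : ℝ :=
  -(1 / 2) * (El.calc' m (logF θ) (logF1 θ) P).s

/-- The covariance path left by a damped coordinate. -/
def dampEl {r : ℕ} (m : Fin r → ℝ) (θ : ℝ) (P : El r) : El r :=
  El.calc' m (dampF θ) (dampF1 θ) P

/-- The compression of the atoms to the orthogonal complement of the vector of root weights. -/
structure Compr {K : ℕ} (A : Atoms K) where
  z : Fin K → ℝ
  b : Fin K → ℝ
  O : Matrix (Fin (K + 1)) (Fin (K + 1)) ℝ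
  orth : O.transpose * O = 1
  last_col : ∀ i, O i (Fin.last K) = Real.sqrt (A.c i)
  conj_block : ∀ j j' : Fin K, (∑ i, O i j.castSucc * A.a i * O i j'.castSucc) =
    if j = j' then z j else 0
  conj_row : ∀ j : Fin K, (∑ i, O i j.castSucc * A.a i * O i (Fin.last K)) = b j
  lt_top : ∀ j, z j < A.top

namespace Compr

variable {K : ℕ} {A : Atoms K} (C : Compr A) {r : ℕ}

/-- The conjugate field path. -/
def fieldEl (m : Fin r → ℝ) (q : Fin (r + 1) → ℝ) : El r where
  s := ∑ j, C.b j ^ 2 * (dampEl m (A.top - C.z j) (A.coordEl m q)).s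
  v p := ∑ j, C.b j ^ 2 * (dampEl m (A.top - C.z j) (A.coordEl m q)).v p

/-- The limit of adding one site of type `k`, minus the quadratic demotion terms of the base. -/
def stepValue (k : Fin (K + 1)) (m : Fin r → ℝ) (q : Fin (r + 1) → ℝ) : ℝ :=
  A.mean / 2 + (∑ j, quadV m (A.top - C.z j) (A.coordEl m q)) +
    quadV m (A.gapTop k) (A.coordEl m q) + siteValue m (C.fieldEl m q).v +
    (C.fieldEl m q).s / 2 - ∑ j : Fin K, quadV m (A.gapTop j.castSucc) (A.coordEl m q)

end Compr

end Vale.Agent.P166.Haar2
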