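import Vale.Agent.P166.Haar2.Sys
import Vale.Agent.P166.Seq

/-!
Interfaces between the parts of the proof of the formula for every compactly supported law, as
propositions.
-/

noncomputable section

open MeasureTheory ProbabilityTheory Filter
open scoped BigOperators Topology

namespace Vale.Agent.P166.Haar2

open Vale.Agent.P157 (gam)
open Vale.Agent.P157.Parisi (Cube IsPath Path scale siteValue weight)
open Vale.Agent.P157.Parisi.Full (IsFieldPath siteSlope tailSum)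
open Vale.Agent.P168 (Shape shapeProb cascFilter)
open Vale.Agent.P168.Cascade (Exps)
open Vale.Agent.P168.Limit (logZ gav)

/-! ### The atoms -/

/-- Elementary facts about the inverse and the derived functions. -/
structure AtomFacts {K : ℕ} (A : Atoms K) : Prop where
  topOf_nonneg : ∀ d, 0 ≤ A.topOf d
  total_topOf : ∀ d, 0 ≤ d → A.total (A.topOf d) = d
  topOf_total : ∀ y, 0 ≤ y → A.topOf (A.total y) = y
  topOf_mono : Monotone A.topOf
  topOf_le : ∀ d, 0 ≤ d → A.topOf d ≤ d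
  sum_blockOf : ∀ d, 0 ≤ d → ∑ k, A.blockOf k d = d
  deriv_block : ∀ k d, 0 < d → HasDerivAt (A.blockOf k) (A.dblockOf k d) d
  deriv_psi : ∀ d, 0 < d → HasDerivAt (fun u => u * A.rA u) (A.dpsi d) d
  dpsi_mono : MonotoneOn A.dpsi (Set.Ici 0)
  lip : ∃ C : ℝ, ∀ d ∈ Set.Icc (0 : ℝ) 1, ∀ d' ∈ Set.Icc (0 : ℝ) 1,
    |A.rA d - A.rA d'| ≤ C * |d - d'| ∧ |A.dpsi d - A.dpsi d'| ≤ C * |d - d'| ∧
      ∀ k, |A.blockOf k d - A.blockOf k d'| ≤ C * |d - d'| ∧
        |A.dblockOf k d - A.dblockOf k d'| ≤ C * |d - d'|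

def AtomFactsStmt : Prop := ∀ (K : ℕ) (A : Atoms K), AtomFacts A

/-- The compression exists and satisfies the two secular identities. -/
def ComprStmt : Prop :=
  ∀ (K : ℕ) (A : Atoms K), ∃ C : Compr A, ∀ y : ℝ, 0 ≤ y →
    ((∑ k, A.a k * A.share k y) / ∑ k, A.share k y) - A.mean =
        ∑ j, C.b j ^ 2 * (y / A.ctop) / (1 + (A.top - C.z j) * (y / A.ctop)) ∧
      Real.log (A.ctop * ∑ k, A.share k y) =
        (∑ j, Real.log (1 + (A.top - C.z j) * (y / A.ctop))) -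
          ∑ j : Fin K, Real.log (1 + A.gapTop j.castSucc * (y / A.ctop))

/-- Two block overlaps solving the rotation identity are the functions of their sum. -/
def StableStmt : Prop :=
  ∀ (K : ℕ) (A : Atoms K), ∃ C : ℝ, ∀ (r : ℕ) (m : Fin r → ℝ) (q : Fin (r + 1) → ℝ), IsPath m q →
    ∀ e : Fin (K + 1) → El r, (∀ k, (e k).IsCov ∧ (e k).s ≤ 1) → ∀ ε : ℝ, 0 ≤ ε →
      |(∑ k, (e k).s) - 1| + ∑ p, weight m p * |(∑ k, (e k).v p) - q p| ≤ ε →
      (∀ k, El.dist m (El.smul (A.c k) (e (Fin.last K)))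
        ⟨A.ctop * (e k).s + A.gapTop k * (El.mul m (e k) (e (Fin.last K))).s,
          fun p => A.ctop * (e k).v p + A.gapTop k * (El.mul m (e k) (e (Fin.last K))).v p⟩ ≤ ε) →
      ∀ k, El.dist m (e k) (A.blockEl m q k) ≤ C * ε

/-- Covariance paths and their calculus. -/
def BlockFactsStmt : Prop :=
  ∀ (K : ℕ) (A : Atoms K), ∃ C : ℝ, ∀ (r : ℕ) (m : Fin r → ℝ) (q : Fin (r + 1) → ℝ), IsPath m q →
    (∀ k, (A.blockEl m q k).IsCov ∧ (A.blockEl m q k).s ≤ 1) ∧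
      (A.coordEl m q).IsCov ∧ (A.coordEl m q).s ≤ C ∧
      (∑ k, A.a k * (A.blockEl m q k).s) = ∫ u in (0 : ℝ)..1, A.dpsi (dfun m q u)

/-- The conjugate field path moves at most like the overlap path. -/
def FieldLipStmt : Prop :=
  ∀ (K : ℕ) (A : Atoms K) (Cp : Compr A), ∃ C : ℝ, 0 ≤ C ∧
    ∀ (r : ℕ) (m : Fin r → ℝ) (q : Fin (r + 1) → ℝ), IsPath m q →
      (Cp.fieldEl m q).IsCov ∧ (Cp.fieldEl m q).s ≤ C ∧
        (Cp.fieldEl m q).v (Fin.last r) ≤ C ∧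
        ∀ p p', |(Cp.fieldEl m q).v p - (Cp.fieldEl m q).v p'| ≤ C * |q p - q p'|

/-- The energy functional depends on the path through a Lipschitz functional of `excess`. -/
def FunAStmt : Prop :=
  ∀ (K : ℕ) (A : Atoms K), ∃ C : ℝ,
    (∀ (r : ℕ) (m : Fin r → ℝ) (q q' : Fin (r + 1) → ℝ), IsPath m q → IsPath m q' →
      |A.funA m q| ≤ C ∧ |A.funA m q - A.funA m q'| ≤ C * ∑ p, weight m p * |q p - q' p|) ∧
    ∀ (ξ ξ' : Path) (e : ℝ), 0 ≤ e →
      (∀ u ∈ Set.Icc (0 : ℝ) 1, Vale.Agent.P157.Parisi.Full.excess ξ.m ξ.q u ≤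
        Vale.Agent.P157.Parisi.Full.excess ξ'.m ξ'.q u + e) →
      (∫ u in (0 : ℝ)..1, A.dpsi (dfun ξ'.m ξ'.q u)) ≤
        (∫ u in (0 : ℝ)..1, A.dpsi (dfun ξ.m ξ.q u)) + C * e

/-- One step of the energy functional in the factor multiplying the atoms. -/
def FunTimeStmt : Prop :=
  ∀ (K : ℕ) (A : Atoms K), ∃ C : ℝ, ∀ (r : ℕ) (m : Fin r → ℝ) (q : Fin (r + 1) → ℝ), IsPath m q →
    ∀ (t t' : ℝ) (ht' : 0 < t'), 0 ≤ t → t ≤ t' → t' ≤ 1 →
      (t' - t) / 2 * (∫ u in (0 : ℝ)..1, A.dpsi (t' * dfun m q u)) ≤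
        (t' / 2 * ∫ u in (0 : ℝ)..1, A.rA (t' * dfun m q u)) -
          (t / 2 * ∫ u in (0 : ℝ)..1, A.rA (t * dfun m q u)) + C * (t' - t) ^ 2 ∧
      (A.scale t' ht').funA m q = t' / 2 * (∫ u in (0 : ℝ)..1, A.rA (t' * dfun m q u)) ∧
      (∑ k, A.a k * ((A.scale t' ht').blockEl m q k).s) =
        ∫ u in (0 : ℝ)..1, A.dpsi (t' * dfun m q u)

/-- The steps averaged with the weights give the functional at the conjugate field path. -/
def ValueStmt : Prop :=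
  ∀ (K : ℕ) (A : Atoms K) (C : Compr A) (r : ℕ) (m : Fin r → ℝ) (q : Fin (r + 1) → ℝ),
    IsPath m q →
    (∀ y : ℝ, 0 ≤ y →
      ((∑ k, A.a k * A.share k y) / ∑ k, A.share k y) - A.mean =
          ∑ j, C.b j ^ 2 * (y / A.ctop) / (1 + (A.top - C.z j) * (y / A.ctop)) ∧
        Real.log (A.ctop * ∑ k, A.share k y) =
          (∑ j, Real.log (1 + (A.top - C.z j) * (y / A.ctop))) -
            ∑ j : Fin K, Real.log (1 + A.gapTop j.castSucc * (y / A.ctop))) →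
    ∑ k, A.c k * C.stepValue k m q = A.funA m q + pairTerm m q (C.fieldEl m q).v

/-! ### Generic estimates -/

/-- Difference quotients of a free energy control the fluctuation of the observable. -/
def FluctStmt : Prop :=
  ∃ C : ℝ, ∀ (Ω X : Type) [MeasurableSpace Ω] [Fintype X] [Nonempty X] (μ : Measure Ω)
    [IsProbabilityMeasure μ] (H O : Ω → X → ℝ) (b : Ω → ℝ),
    (∀ σ, Measurable fun ω => H ω σ) → (∀ σ, Measurable fun ω => O ω σ) → Integrable b μ →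
    (∀ ω σ, |H ω σ| ≤ b ω ∧ |O ω σ| ≤ b ω) →
    ∀ (h M φ : ℝ), 0 < h → 0 ≤ φ →
      (∫ ω, logZ (fun σ => H ω σ + h * O ω σ) ∂μ) + (∫ ω, logZ (fun σ => H ω σ + -h * O ω σ) ∂μ) -
          2 * (∫ ω, logZ (H ω) ∂μ) ≤ M →
      (∀ d ∈ ({0, h, -h} : Set ℝ), ∫ ω, |logZ (fun σ => H ω σ + d * O ω σ) -
          ∫ ω', logZ (fun σ => H ω' σ + d * O ω' σ) ∂μ| ∂μ ≤ φ) →
      ∫ ω, gav (H ω) (fun σ => |O ω σ - ∫ ω', gav (H ω') (O ω') ∂μ|) ∂μ ≤
        C * (1 + |M| + φ) / h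

/-- The expansion of the mean logarithm of a damped Gaussian tilt. -/
def TaylorStmt : Prop :=
  ∃ C : ℝ, ∀ (X ι : Type) [Fintype X] [Nonempty X] [Fintype ι] (w c : X → ℝ) (u : X → ι → ℝ),
    (∀ σ, 0 ≤ w σ) → (∑ σ, w σ = 1) → (∀ σ, c σ = 1 ∨ c σ = -1) →
    (∀ σ, ∑ i, u σ i ^ 2 = 1) → ∀ κ ∈ Set.Icc (0 : ℝ) 1,
      |(∫ g, Real.log (∑ σ, w σ * Real.exp (Real.sqrt κ * c σ * (∑ i, g i * u σ i) -
          κ * (∑ i, g i * u σ i) ^ 2 / 2)) ∂gam ι) +
        κ / 2 * ∑ σ, ∑ τ, w σ * w τ * (c σ * c τ * ∑ i, u σ i * u τ i)| ≤ C * κ * Real.sqrt κ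

/-! ### Perturbed systems -/

/-- A sequence of standard systems over bases. -/
structure SysSeq (K : ℕ) where
  N : ℕ → ℕ
  a : (j : ℕ) → Fin (K + 1) → ℝ
  w : (j : ℕ) → Fin (N j) → Fin (K + 1)
  B : (j : ℕ) → RBase (N j)
  x : (j : ℕ) → Fin (N j) → ℝ

namespace SysSeq

variable {K : ℕ} (Q : SysSeq K)

/-- The system at stage `j`. -/
def sys (j : ℕ) : Sys (Q.N j) (K + 2) := stdSys (Q.a j) (Q.w j)

/-- The free energy with the atoms and the strengths of the monomials replaced. -/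
def freeAt (j : ℕ) (a : Fin (K + 1) → ℝ) (x : Fin (Q.N j) → ℝ) : ℝ :=
  (stdSys a (Q.w j)).free (scale (Q.N j)) x (Q.B j)

/-- Its deviation. -/
def devAt (j : ℕ) (a : Fin (K + 1) → ℝ) (x : Fin (Q.N j) → ℝ) : ℝ :=
  (stdSys a (Q.w j)).dev (scale (Q.N j)) x (Q.B j)

/-- The mean of a function of the overlaps. -/
def mean (j n : ℕ) (F : (Fin (K + 2) → Fin n → Fin n → ℝ) → ℝ) : ℝ :=
  (Q.sys j).ovMean (scale (Q.N j)) (Q.x j) (Q.B j) n F

/-- The sizes grow and the atoms and fractions converge to those of `A`. -/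
structure Std (A : Atoms K) : Prop where
  size : Tendsto Q.N atTop atTop
  pos : ∀ j, 0 < Q.N j
  atoms : ∀ k, Tendsto (fun j => Q.a j k) atTop (𝓝 (A.a k))
  fracs : ∀ k, Tendsto (fun j => frac (Q.w j) k) atTop (𝓝 (A.c k))
  box : ∀ j i, |Q.x j i| ≤ 3

/-- Capped second differences and concentration at the neighbouring parameters. -/
structure Capped (C : ℝ) : Prop where
  coord : ∀ j i, Q.x j i ∈ Set.Icc (1 : ℝ) 2
  capX : ∀ j i,
    Q.freeAt j (Q.a j) (Function.update (Q.x j) i (Q.x j i + diffStep (Q.N j))) +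
        Q.freeAt j (Q.a j) (Function.update (Q.x j) i (Q.x j i - diffStep (Q.N j))) -
        2 * Q.freeAt j (Q.a j) (Q.x j) ≤
      C * (1 + scale (Q.N j) ^ 2 * diffStep (Q.N j) ^ 2)
  capA : ∀ j k,
    Q.freeAt j (Function.update (Q.a j) k (Q.a j k + eta (Q.N j) * diffStep (Q.N j))) (Q.x j) +
        Q.freeAt j (Function.update (Q.a j) k (Q.a j k - eta (Q.N j) * diffStep (Q.N j))) (Q.x j) -
        2 * Q.freeAt j (Q.a j) (Q.x j) ≤
      C * (1 + eta (Q.N j) * Q.N j * diffStep (Q.N j) ^ 2)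
  devX : ∀ j i, ∀ d ∈ ({0, diffStep (Q.N j), -diffStep (Q.N j)} : Set ℝ),
    Q.devAt j (Q.a j) (Function.update (Q.x j) i (Q.x j i + d)) ≤ C * devRate (Q.N j)
  devA : ∀ j k, ∀ d ∈ ({0, diffStep (Q.N j), -diffStep (Q.N j)} : Set ℝ),
    Q.devAt j (Function.update (Q.a j) k (Q.a j k + eta (Q.N j) * d)) (Q.x j) ≤
      C * devRate (Q.N j)

/-- Asymptotic identities for every monomial, and concentration of the diagonal overlaps. -/
structure GG : Prop where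
  ident : ∀ (n : ℕ) (e : Fin (K + 2) → ℕ) (F : (Fin (K + 2) → Fin (n + 1) → Fin (n + 1) → ℝ) → ℝ),
    Continuous F →
    Tendsto (fun j =>
      ((n : ℝ) + 1) * Q.mean j (n + 2) (fun R => F (fun g a b => R g a.castSucc b.castSucc) *
          ∏ g, R g 0 (Fin.last (n + 1)) ^ e g) -
        (Q.mean j (n + 1) F * Q.mean j 2 (fun R => ∏ g, R g 0 1 ^ e g) +
          ∑ l : Fin n, Q.mean j (n + 1) (fun R => F R * ∏ g, R g 0 l.succ ^ e g))) atTop (𝓝 0)
  self : ∀ g, Tendsto (fun j =>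
    Q.mean j 1 (fun R => |R g 0 0 - Q.mean j 1 (fun R' => R' g 0 0)|)) atTop (𝓝 0)

/-- The rotation identity in the limit. -/
def Rot (A : Atoms K) : Prop :=
  ∀ (n : ℕ) (l l' : Fin n) (k k' : Fin (K + 1))
    (F : (Fin (K + 2) → Fin n → Fin n → ℝ) → ℝ), Continuous F →
    Tendsto (fun j => Q.mean j (n + 1) (fun R =>
      F (fun g a b => R g a.castSucc b.castSucc) *
        (A.c k * R k'.succ l.castSucc l'.castSucc - A.c k' * R k.succ l.castSucc l'.castSucc +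
          (A.a k - A.a k') * ((∑ i : Fin n,
              R k.succ l.castSucc i.castSucc * R k'.succ i.castSucc l'.castSucc) -
            (n : ℝ) * (R k.succ l.castSucc (Fin.last n) * R k'.succ (Fin.last n) l'.castSucc)))))
      atTop (𝓝 0)

/-- The systems are asymptotically the cascades of paths, every block following the atoms. -/
def Approx (A : Atoms K) (ξ : ℕ → Path) : Prop :=
  ∀ (n : ℕ) (F : (Fin (K + 2) → Fin n → Fin n → ℝ) → ℝ), Continuous F →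
    Tendsto (fun j => Q.mean j n F - A.treeExpV (ξ j) n F) atTop (𝓝 0)

/-- The subsequence along `φ`. -/
def sub (φ : ℕ → ℕ) : SysSeq K where
  N j := Q.N (φ j)
  a j := Q.a (φ j)
  w j := Q.w (φ j)
  B j := Q.B (φ j)
  x j := Q.x (φ j)

end SysSeq

/-- Haar invariance gives the rotation identity. -/
def RotStmt : Prop :=
  ∀ (K : ℕ) (A : Atoms K) (Q : SysSeq K), Q.Std A → Q.Rot A

/-- Caps and concentration give the identities. -/
def GGStmt : Prop :=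
  ∀ (K : ℕ) (A : Atoms K) (Q : SysSeq K) (C : ℝ), Q.Std A → Q.Capped C → Q.GG

/-- The array of all block overlaps. -/
abbrev VArr (G : ℕ) := ℕ → ℕ → Fin G → ℝ

/-- Asymptotic identities give a limit array which is a tree for every block. -/
def TreeStmt : Prop :=
  ∀ (K : ℕ) (A : Atoms K) (Q : SysSeq K), Q.Std A → Q.GG →
    ∃ (φ : ℕ → ℕ) (μ : Measure (VArr (K + 2))), StrictMono φ ∧ IsProbabilityMeasure μ ∧
      (∀ (n : ℕ) (F : (Fin (K + 2) → Fin n → Fin n → ℝ) → ℝ), Continuous F →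
        Tendsto (fun j => Q.mean (φ j) n F) atTop
          (𝓝 (∫ R, F (fun g a b => R (a : ℕ) (b : ℕ) g) ∂μ))) ∧
      (∀ᵐ R ∂μ, ∀ a b g, |R a b g| ≤ 1 ∧ R a b g = R b a g) ∧
      ∀ M : ℕ, ∃ (ξ : Path) (e : Fin (K + 1) → El ξ.r) (lev : (Fin (K + 2) → ℝ) → Fin (ξ.r + 1)),
        Measurable lev ∧ (∀ k, (e k).IsCov ∧ (e k).s ≤ 1) ∧
        ∀ n : ℕ, ∀ sh : VArr (K + 2) → Shape ξ.r n,
          (sh = fun R a b => if a = b then Fin.last ξ.r else lev (R (a : ℕ) (b : ℕ))) →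
          (∀ v, μ.real {R | sh R = v} = shapeProb ξ.m n v) ∧
          ∀ᵐ R ∂μ, ∀ a b : Fin n,
            |R (a : ℕ) (b : ℕ) 0 - (if a = b then 1 else ξ.q (sh R a b))| ≤ 1 / ((M : ℝ) + 1) ∧
            ∀ k : Fin (K + 1),
              |R (a : ℕ) (b : ℕ) k.succ - (if a = b then (e k).s else (e k).v (sh R a b))| ≤
                1 / ((M : ℝ) + 1)

/-- The structure theorem. -/
def StructStmt : Prop :=
  ∀ (K : ℕ) (A : Atoms K) (Q : SysSeq K) (C : ℝ), Q.Std A → Q.Capped C →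
    ∃ (φ : ℕ → ℕ) (ξ : ℕ → Path), StrictMono φ ∧ (Q.sub φ).Approx A ξ

/-- Concentration of the free energy, over the uniform base and over truncated cascades. -/
def DevStmt : Prop :=
  ∀ (G : ℕ) (C₀ : ℝ), ∃ C : ℝ, ∀ (N L : ℕ) (P : Sys N G), 0 < N → (∀ i, |P.lam i| ≤ C₀) →
    (N : ℝ) ≤ P.ν → ∀ x : Fin L → ℝ, (∀ i, |x i| ≤ C₀) →
      P.dev (scale N) x (unifBase N) ≤ C * devRate N

/-- Concentration over truncated cascades. -/
def SlotDevStmt : Prop :=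
  ∀ (r : ℕ) (m : Fin r → ℝ), Exps m → ∀ (G : ℕ) (C₀ R a : ℝ), 0 ≤ a → ∃ C : ℝ,
    ∀ (N L T : ℕ) (P : Sys N G), 0 < N → (∀ i, |P.lam i| ≤ C₀) → (N : ℝ) ≤ P.ν →
    ∀ δ : ℝ, 0 ≤ δ → δ * T ≤ R → ∀ (ks : Fin T → Fin (r + 1)) (x : Fin L → ℝ),
      (∀ i, |x i| ≤ C₀) → ∀ᶠ n in cascFilter r,
        P.dev (scale N) x (slotBase N δ a m ks n) ≤ C * devRate N

/-- Size and monotonicity of the perturbation. -/
def PertShapeStmt : Prop :=
  ∀ (G N L : ℕ) (P : Sys N G), 0 < N → (N : ℝ) ≤ P.ν → ∀ (s : ℝ) (B : RBase N),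
    (∀ x : Fin L → ℝ, P.free s (fun _ : Fin L => 0) B ≤ P.free s x B ∧
      P.free s x B ≤ P.free s (fun _ : Fin L => 0) B +
        s ^ 2 / 2 * ∑ i : Fin L, (coef G i.val * x i) ^ 2) ∧
    ∀ (x x' : Fin L → ℝ), (∀ i, |x i| ≤ |x' i|) →
      P.free s x B ≤ P.free s x' B ∧
        P.free s x' B ≤ P.free s x B +
          s ^ 2 / 2 * ∑ i : Fin L, coef G i.val ^ 2 * (x' i ^ 2 - x i ^ 2)

/-! ### The slots -/

/-- The truncated cascades carry the slots in the limit. -/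
def SlotTruncStmt : Prop :=
  ∀ (G N L T r : ℕ) (P : Sys N G), 0 < N → ∀ (m : Fin r → ℝ), Exps m → ∀ (δ a : ℝ), 0 ≤ δ → 0 ≤ a →
    ∀ (s : ℝ) (x : Fin L → ℝ) (ks : Fin T → Fin (r + 1)),
      Tendsto (fun n => P.free s x (slotBase N δ a m ks n)) (cascFilter r)
          (𝓝 (P.slotFree s x δ a m ks)) ∧
        ∀ (k : Fin (r + 1)) (b : ℝ), 0 ≤ b → ∀ ε > 0, ∀ᶠ n in cascFilter r,
          P.slotOverlap s x δ a m ks k ≤
            (∫ z, Vale.Agent.P168.Limit.rav 2 (P.ham s x (slotBase N δ a m ks n) z) (fun σ =>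
                max (Vale.Agent.P157.Parisi.overlap (σ 0) (σ 1) - b) 0)
              ∂dzLaw G L (slotBase N δ a m ks n)) +
              b * tailSum m (fun _ => 1) k + ε

/-- One more slot. -/
def SlotStepStmt : Prop :=
  ∀ (G N L T r : ℕ) (P : Sys N G), 0 < N → ∀ (m : Fin r → ℝ), Exps m → ∀ (δ a : ℝ), 0 ≤ δ →
    0 ≤ a → Real.sqrt δ * (N * a) ≤ 1 / 10 →
    ∀ (s : ℝ) (x : Fin L → ℝ) (ks : Fin T → Fin (r + 1)) (k : Fin (r + 1)),
      P.slotFree s x δ a m ks +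
          Vale.Agent.P157.Parisi.Up.svar a * δ / 2 *
            (N * (1 - P.slotOverlap s x δ a m ks k)) -
          20 * (Real.sqrt δ * (N * a)) ^ 3 ≤
        P.slotFree s x δ a m (Fin.cons k ks)

/-! ### Fresh coordinates -/

/-- The mean logarithm of a weight of top coordinates and of a test field, on cascades. -/
def FreshStmt : Prop :=
  ∀ (K : ℕ) (A : Atoms K) (Q : SysSeq K) (ξ : ℕ → Path) (k : ℕ)
    (coords : (j : ℕ) → Fin (K + 1) → Fin (Q.N j)) (X : (Fin (K + 1) ⊕ Fin 1 → ℝ) → ℝ) (C : ℝ),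
    Q.Std A → Q.Approx A ξ → (∀ j, Function.Injective (coords j)) →
    (∀ j i, Q.w j (coords j i) = Fin.last K) → Continuous X →
    (∀ z, Real.exp (-(C * (1 + ∑ i, z i ^ 2))) ≤ X z ∧ X z ≤ C) →
    Tendsto (fun j => (Q.sys j).freshLog (scale (Q.N j)) (Q.x j) (Q.B j) k (coords j) X -
      cascV (ξ j).m
        (Sum.elim (fun _ => A.coordEl (ξ j).m (ξ j).q) fun _ => powEl (ξ j).q k) X) atTop (𝓝 0)

/-- The closed form of the demotion weight on a cascade. -/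
def CascValueStmt : Prop :=
  ∀ (K r : ℕ) (m : Fin r → ℝ), Exps m → ∀ (P E : El r), P.IsCov → E.IsCov →
    ∀ (θ b : Fin (K + 1) → ℝ) (κ : ℝ) (lin : Bool), (∀ j, 0 ≤ θ j) → 0 ≤ κ →
      cascV m (Sum.elim (fun _ => P) fun _ => E) (stepX θ b κ lin) =
        (∑ j, quadV m (θ j) P) + quadV m κ E +
          siteValue m (fun p => (∑ j, b j ^ 2 * (dampEl m (θ j) P).v p) +
            if lin then 0 else κ * (dampEl m κ E).v p) +
          ((∑ j, b j ^ 2 * (dampEl m (θ j) P).s) + κ * (dampEl m κ E).s) / 2 -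
          if lin then κ / 2 * ∑ p, weight m p * (dampEl m κ E).v p else 0

/-- The site part to first order, uniformly. -/
def SiteTaylorStmt : Prop :=
  ∀ S : ℝ, ∃ C : ℝ, ∀ (r : ℕ) (m : Fin r → ℝ) (ρ Δ : Fin (r + 1) → ℝ), IsFieldPath m ρ →
    IsFieldPath m Δ → ρ (Fin.last r) ≤ S → Δ (Fin.last r) ≤ 1 → ∀ κ ∈ Set.Icc (0 : ℝ) 1,
      |siteValue m (fun p => ρ p + κ * Δ p) - siteValue m ρ +
        κ / 2 * ∑ p, weight m p * siteSlope m ρ p * Δ p| ≤ C * κ * Real.sqrt κ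

/-! ### The cavity step -/

/-- The first coordinates of the blocks below the top, and one more coordinate, as top coordinates
of the promoted labelling. -/
def GoodCoords {N K : ℕ} (w : Fin N → Fin (K + 1)) (coords : Fin (K + 1) → Fin N) : Prop :=
  Function.Injective coords ∧ ∀ i, promote w (coords i) = Fin.last K

/-- Adding one site, in terms of the promoted labelling. -/
def StepStmt : Prop :=
  ∀ (K : ℕ) (A : Atoms K) (Cp : Compr A) (Q : SysSeq K), Q.Std A →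
    (∀ j, Q.B j = unifBase (Q.N j)) →
    ∀ (coords : (j : ℕ) → Fin (K + 1) → Fin (Q.N j)), (∀ j, GoodCoords (Q.w j) (coords j)) →
    ∀ (k : Fin (K + 1)) (deg : ℕ) (κ : ℝ) (lin : Bool), κ ∈ Set.Icc (0 : ℝ) 1 →
    ∀ δ₀ > 0, ∃ δ ∈ Set.Ioc (0 : ℝ) δ₀, ∀ᶠ j in atTop,
      let base : Sys (Q.N j) (K + 2) := stdSys (Q.a j) (promote (Q.w j))
      let T : ℝ := testFree (Q.a j) (Fin.snoc (Q.w j) k) (Q.x j) deg κ lin -
        base.free (scale (Q.N j)) (Q.x j) (unifBase (Q.N j)) - A.mean / 2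
      let X : ℝ → ℝ := fun d => base.freshLog (scale (Q.N j)) (Q.x j) (unifBase (Q.N j)) deg
        (coords j) (stepX (Fin.snoc (fun i => A.top - Cp.z i + d) (A.gapTop k))
          (Fin.snoc Cp.b 0) κ lin)
      X δ - δ₀ ≤ T ∧ T ≤ X (-δ) + δ₀

/-- Demoting to the given labelling, in terms of the promoted labelling. -/
def DemoteStmt : Prop :=
  ∀ (K : ℕ) (A : Atoms K) (Q : SysSeq K), Q.Std A → (∀ j, Q.B j = unifBase (Q.N j)) →
    ∀ (coords : (j : ℕ) → Fin (K + 1) → Fin (Q.N j)), (∀ j, GoodCoords (Q.w j) (coords j)) →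
    ∀ δ₀ > 0, ∃ δ ∈ Set.Ioc (0 : ℝ) δ₀, ∀ᶠ j in atTop,
      let base : Sys (Q.N j) (K + 2) := stdSys (Q.a j) (promote (Q.w j))
      let T : ℝ := (stdSys (Q.a j) (Q.w j)).free (scale (Q.N j)) (Q.x j) (unifBase (Q.N j)) -
        base.free (scale (Q.N j)) (Q.x j) (unifBase (Q.N j))
      let X : ℝ → ℝ := fun d => base.freshLog (scale (Q.N j)) (Q.x j) (unifBase (Q.N j)) 0
        (coords j) (stepX (Fin.snoc (fun i : Fin K => A.gapTop i.castSucc + d) 0) 0 0 true)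
      X δ - δ₀ ≤ T ∧ T ≤ X (-δ) + δ₀

/-- The free energy of the promoted labelling is within a constant of the original one. -/
def PromoteStmt : Prop :=
  ∀ (K : ℕ) (C₀ c₀ : ℝ), 0 < c₀ → ∃ (C : ℝ) (N₀ : ℕ), ∀ N ≥ N₀,
    ∀ (a : Fin (K + 1) → ℝ) (w : Fin N → Fin (K + 1)) (x : Fin N → ℝ),
      (∀ k, |a k| ≤ C₀ ∧ a k ≤ a (Fin.last K) ∧ c₀ ≤ frac w k) → (∀ i, |x i| ≤ 3) →
      |(stdSys a (promote w)).free (scale N) x (unifBase N) -
        (stdSys a w).free (scale N) x (unifBase N)| ≤ C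

/-- At nearly maximal parameters the promoted system has the structure. -/
def BaseStmt : Prop :=
  ∀ (K : ℕ) (A : Atoms K) (N : ℕ → ℕ) (w : (j : ℕ) → Fin (N j) → Fin (K + 1))
    (x : (j : ℕ) → Fin (N j) → ℝ) (y : ℕ → Fin (K + 1) → ℝ), Tendsto N atTop atTop →
    (∀ k, Tendsto (fun j => frac (w j) k) atTop (𝓝 (A.c k))) →
    (∀ j, (∀ i, x j i ∈ Set.Icc (0 : ℝ) 3) ∧ ∀ k, y j k ∈ Set.Icc (0 : ℝ) 3) →
    (∀ j x' y', (∀ i, x' i ∈ Set.Icc (0 : ℝ) 3) → (∀ k, y' k ∈ Set.Icc (0 : ℝ) 3) →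
      objLower A.a (w j) x' y' ≤ objLower A.a (w j) (x j) (y j) + tol K (N j)) →
    ∃ (φ : ℕ → ℕ) (ξ : ℕ → Path), StrictMono φ ∧
      (SysSeq.mk (fun j => N (φ j)) (fun j => shifted A.a (N (φ j)) (y (φ j)))
        (fun j => promote (w (φ j))) (fun j => unifBase (N (φ j))) (fun j => x (φ j))).Approx A ξ

/-- Asymptotic cascades of promoted systems are stationary. -/
def StationaryStmt : Prop :=
  ∀ (K : ℕ) (A : Atoms K) (Cp : Compr A) (Q : SysSeq K) (ξ : ℕ → Path), Q.Std A →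
    (∀ j, Q.B j = unifBase (Q.N j)) →
    (SysSeq.mk Q.N Q.a (fun j => promote (Q.w j)) Q.B Q.x).Approx A ξ →
    Tendsto (fun j => ∑ p, weight (ξ j).m p *
      |siteSlope (ξ j).m (Cp.fieldEl (ξ j).m (ξ j).q).v p - (ξ j).q p|) atTop (𝓝 0)

/-! ### The bounds and the formula -/

/-- The numbers lying above the functional at some path, for every field path. -/
def Atoms.upperValuesA {K : ℕ} (A : Atoms K) : Set ℝ :=
  {v | ∃ (r : ℕ) (m : Fin r → ℝ) (q : Fin (r + 1) → ℝ), IsPath m q ∧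
    ∀ ρ : Fin (r + 1) → ℝ, IsFieldPath m ρ → A.funA m q + pairTerm m q ρ ≤ v}

/-- The upper bound. -/
def UpperStmt : Prop :=
  ∀ (K : ℕ) (A : Atoms K) (N : ℕ → ℕ) (w : (j : ℕ) → Fin (N j) → Fin (K + 1)),
    Tendsto N atTop atTop → (∀ k, Tendsto (fun j => frac (w j) k) atTop (𝓝 (A.c k))) →
    ∀ v ∈ A.upperValuesA, ∀ ε > 0, ∀ᶠ j in atTop, meanP 1 (fun i => A.a (w j i)) ≤ v + ε

/-- The lower bound. -/
def LowerStmt : Prop :=
  ∀ (K : ℕ) (A : Atoms K) (N : ℕ → ℕ) (w : (j : ℕ) → Fin (N j) → Fin (K + 1)),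
    Tendsto N atTop atTop → (∀ k, Tendsto (fun j => frac (w j) k) atTop (𝓝 (A.c k))) →
    ∀ ε > 0, ∀ᶠ j in atTop, ∃ v ∈ A.upperValuesA, v ≤ meanP 1 (fun i => A.a (w j i)) + ε

/-- The formula for finitely many atoms. -/
def AtomsFormulaStmt : Prop :=
  ∀ (K : ℕ) (A : Atoms K), A.upperValuesA.Nonempty ∧ BddBelow A.upperValuesA ∧
    ∀ (N : ℕ → ℕ) (w : (j : ℕ) → Fin (N j) → Fin (K + 1)), Tendsto N atTop atTop →
      (∀ k, Tendsto (fun j => frac (w j) k) atTop (𝓝 (A.c k))) →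
      Tendsto (fun j => meanP 1 (fun i => A.a (w j i))) atTop (𝓝 (sInf A.upperValuesA))

/-- The energy functional of atoms is the general one. -/
def TransformStmt : Prop :=
  ∀ (K : ℕ) (A : Atoms K) (β : ℝ) (hβ : 0 < β) (r : ℕ) (m : Fin r → ℝ) (q : Fin (r + 1) → ℝ),
    IsPath m q → funG β A.law m q = (A.scale β hβ).funA m q

/-- The formula for every compactly supported law. -/
def FinalStmt : Prop :=
  ∀ (β : ℝ), 0 < β → ∀ (μ : Measure ℝ), IsProbabilityMeasure μ → IsCompact μ.support →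
    (upperValues β μ).Nonempty ∧ BddBelow (upperValues β μ) ∧
      ∀ lam : ∀ N, Fin N → ℝ, Admissible μ lam →
        Tendsto (fun N => ∫ U, |pressure β (lam N) U - ell β μ| ∂orthHaar N) atTop (𝓝 0)

end Vale.Agent.P166.Haar2
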