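import Mathlib

/-!
The Stieltjes transform of finitely many weighted atoms above the top one: `1 / G` is concave,
`x ↦ x * z x` is convex for the inverse `z` of `G`, and the derivative of the Legendre value.
-/

namespace Vale.Agent.P166.Haar2.RTransform

open Set Filter Topology

variable {K : ℕ} (c l : Fin K → ℝ)

/-- The Stieltjes transform. -/
noncomputable def G (z : ℝ) : ℝ := ∑ k, c k / (z - l k)
/-- The sum of squared inverse gaps. -/
noncomputable def G2 (z : ℝ) : ℝ := ∑ k, c k / (z - l k) ^ 2
/-- The sum of cubed inverse gaps. -/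
noncomputable def G3 (z : ℝ) : ℝ := ∑ k, c k / (z - l k) ^ 3

variable {c l} {top : Fin K} (hc : ∀ k, 0 ≤ c k) (ht : 0 < c top) (hl : ∀ k, l k ≤ l top)

include hc ht hl in
lemma G_pos {z : ℝ} (hz : l top < z) : 0 < G c l z := by
  have : ∀ k, 0 ≤ c k / (z - l k) := fun k => div_nonneg (hc k) (by linarith [hl k])
  exact lt_of_lt_of_le (div_pos ht (sub_pos.2 hz))
    (Finset.single_le_sum (fun k _ => this k) (Finset.mem_univ top))

include hl in
lemma hasDerivAt_G {z : ℝ} (hz : l top < z) : HasDerivAt (G c l) (-G2 c l z) z := by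
  rw [G2, ← Finset.sum_neg_distrib]
  refine HasDerivAt.fun_sum fun k _ => ?_
  have hne : z - l k ≠ 0 := by linarith [hl k]
  exact ((hasDerivAt_const z (c k)).div ((hasDerivAt_id' z).sub_const (l k)) hne).congr_deriv
    (by ring)

include hl in
lemma hasDerivAt_G2 {z : ℝ} (hz : l top < z) : HasDerivAt (G2 c l) (-2 * G3 c l z) z := by
  rw [G3, Finset.mul_sum]
  refine HasDerivAt.fun_sum fun k _ => ?_
  have hne : z - l k ≠ 0 := by linarith [hl k]
  refine ((hasDerivAt_const z (c k)).div (((hasDerivAt_id' z).sub_const (l k)).pow 2)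
    (pow_ne_zero 2 hne)).congr_deriv ?_
  simp only [Pi.pow_apply]
  field_simp
  ring

include hc hl in
lemma G2_sq_le {z : ℝ} (hz : l top < z) : G2 c l z ^ 2 ≤ G c l z * G3 c l z := by
  have p : ∀ k, 0 < z - l k := fun k => by linarith [hl k]
  refine Finset.sum_sq_le_sum_mul_sum_of_sq_le_mul _ (fun k _ => div_nonneg (hc k) (p k).le)
    (fun k _ => div_nonneg (hc k) (pow_nonneg (p k).le 3)) fun k _ => le_of_eq ?_
  have := (p k).ne'
  field_simp

include hc ht hl in
lemma concave_inv : ConcaveOn ℝ (Ioi (l top)) fun z => (G c l z)⁻¹ := by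
  refine concaveOn_of_hasDerivWithinAt2_nonpos (convex_Ioi _)
    (fun z hz => (((hasDerivAt_G hl hz).inv (G_pos hc ht hl hz).ne').continuousAt).continuousWithinAt)
    (f' := fun z => G2 c l z / G c l z ^ 2)
    (f'' := fun z => -2 * (G c l z * G3 c l z - G2 c l z ^ 2) / G c l z ^ 3) ?_ ?_ ?_
  all_goals intro z hz; rw [interior_Ioi] at hz
  · exact (((hasDerivAt_G hl hz).inv (G_pos hc ht hl hz).ne').congr_deriv (by ring)).hasDerivWithinAt
  · have hp := (G_pos hc ht hl hz).ne'
    refine (((hasDerivAt_G2 hl hz).div ((hasDerivAt_G hl hz).pow 2) (pow_ne_zero 2 hp)).congr_deriv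
      ?_).hasDerivWithinAt
    simp only [Pi.pow_apply]
    field_simp
    ring
  · exact div_nonpos_of_nonpos_of_nonneg (by linarith [G2_sq_le hc hl hz])
      (pow_nonneg (G_pos hc ht hl hz).le 3)

include hc ht hl in
lemma G_strictAnti : StrictAntiOn (G c l) (Ioi (l top)) := fun a ha b hb hab => by
  refine Finset.sum_lt_sum (fun k _ => div_le_div_of_nonneg_left (hc k)
    (by linarith [hl k, mem_Ioi.1 ha]) (by linarith)) ⟨top, Finset.mem_univ _, ?_⟩
  exact div_lt_div_of_pos_left ht (sub_pos.2 ha) (by linarith)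

include hc ht hl in
lemma exists_G {x : ℝ} (hx : 0 < x) : ∃ z, l top < z ∧ G c l z = x := by
  set S := ∑ k, c k
  have hS : c top ≤ S := Finset.single_le_sum (fun k _ => hc k) (Finset.mem_univ top)
  set a := l top + c top / (2 * x)
  set b := l top + S / x + 1
  have pa : l top < a := lt_add_of_pos_right _ (by positivity)
  have hab : a ≤ b := by
    have : c top / (2 * x) ≤ S / x := by
      refine (div_le_div_of_nonneg_left ht.le hx (by linarith)).trans ?_
      gcongr
    simp only [a, b]; linarith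
  have ga : x ≤ G c l a := by
    refine le_trans ?_ (Finset.single_le_sum (f := fun k => c k / (a - l k))
      (fun k _ => div_nonneg (hc k) (by linarith [hl k])) (Finset.mem_univ top))
    simp only [a, add_sub_cancel_left]
    rw [div_div_eq_mul_div, le_div_iff₀ ht]
    nlinarith
  have gb : G c l b ≤ x := by
    have hd : 0 < S / x + 1 := by have := ht.trans_le hS; positivity
    calc G c l b ≤ ∑ k, c k / (S / x + 1) := Finset.sum_le_sum fun k _ =>
          div_le_div_of_nonneg_left (hc k) hd (by simp only [b]; linarith [hl k])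
      _ = S / (S / x + 1) := (Finset.sum_div _ _ _).symm
      _ ≤ x := by
        rw [div_le_iff₀ hd, mul_add, mul_one, mul_div_cancel₀ _ hx.ne']
        linarith
  obtain ⟨z, hz, e⟩ := intermediate_value_Icc' hab
    (fun z hz => (hasDerivAt_G hl (pa.trans_le hz.1)).continuousAt.continuousWithinAt) ⟨gb, ga⟩
  exact ⟨z, pa.trans_le hz.1, e⟩

include hc ht hl in
lemma convex_xz {z : ℝ → ℝ} (hz : ∀ x, 0 < x → l top < z x ∧ G c l (z x) = x) :
    ConvexOn ℝ (Ioi 0) fun x => x * z x := by
  refine ⟨convex_Ioi 0, fun x hx y hy a b ha hb hab => ?_⟩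
  rcases eq_or_lt_of_le ha with h0 | ha
  · subst h0; rw [zero_add] at hab; subst hab; simp
  rcases eq_or_lt_of_le hb with h0 | hb
  · subst h0; rw [add_zero] at hab; subst hab; simp
  simp only [smul_eq_mul]
  have hs : 0 < a * x + b * y := add_pos (mul_pos ha hx) (mul_pos hb hy)
  obtain ⟨m1, e1⟩ := hz x hx
  obtain ⟨m2, e2⟩ := hz y hy
  obtain ⟨m3, e3⟩ := hz _ hs
  set p := a * x / (a * x + b * y)
  set q := b * y / (a * x + b * y)
  have hpq : p + q = 1 := by rw [← add_div]; exact div_self hs.ne'
  have hp : 0 ≤ p := div_nonneg (mul_pos ha hx).le hs.le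
  have hq : 0 ≤ q := div_nonneg (mul_pos hb hy).le hs.le
  have hcc := (concave_inv hc ht hl).2 (mem_Ioi.2 m1) (mem_Ioi.2 m2) hp hq hpq
  simp only [smul_eq_mul, e1, e2] at hcc
  have hmem : p * z x + q * z y ∈ Ioi (l top) := (convex_Ioi _) m1 m2 hp hq hpq
  have he : p * x⁻¹ + q * y⁻¹ = (a * x + b * y)⁻¹ := by
    simp only [p, q]
    have := ne_of_gt (mem_Ioi.1 hx); have := ne_of_gt (mem_Ioi.1 hy)
    field_simp
    linarith
  rw [he, inv_le_inv₀ hs (G_pos hc ht hl hmem)] at hcc
  have hle : z (a * x + b * y) ≤ p * z x + q * z y := by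
    by_contra hlt
    push Not at hlt
    have := (G_strictAnti hc ht hl) hmem m3 hlt
    rw [e3] at this
    linarith
  calc (a * x + b * y) * z (a * x + b * y) ≤ (a * x + b * y) * (p * z x + q * z y) :=
        mul_le_mul_of_nonneg_left hle hs.le
    _ = _ := by simp only [p, q]; field_simp

variable (c l) in
/-- The Legendre value at an inverse `z`. -/
noncomputable def fval (z : ℝ → ℝ) (x : ℝ) : ℝ :=
  x * z x - (∑ k, c k * Real.log (z x - l k)) - 1 - Real.log x

include hc ht in
lemma G2_pos {z : ℝ} (hz : l top < z) : 0 < G2 c l z :=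
  lt_of_lt_of_le (div_pos ht (pow_pos (sub_pos.2 hz) 2))
    (Finset.single_le_sum (f := fun k => c k / (z - l k) ^ 2)
      (fun k _ => div_nonneg (hc k) (sq_nonneg _)) (Finset.mem_univ top))

include hc ht hl in
lemma hasDerivAt_z {z : ℝ → ℝ} (hz : ∀ x, 0 < x → l top < z x ∧ G c l (z x) = x) {x : ℝ}
    (hx : 0 < x) : HasDerivAt z (-(G2 c l (z x))⁻¹) x := by
  have hanti : ∀ a b, 0 < a → 0 < b → a < b → z b < z a := fun a b ha hb hab => by
    by_contra hle
    push Not at hle
    have := (G_strictAnti hc ht hl).antitoneOn (hz a ha).1 (hz b hb).1 hle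
    rw [(hz a ha).2, (hz b hb).2] at this
    linarith
  have hcont : ContinuousAt z x := by
    rw [Metric.continuousAt_iff]
    intro ε hε
    obtain ⟨m, e⟩ := hz x hx
    set δ := min (ε / 2) ((z x - l top) / 2)
    have hδ : 0 < δ := lt_min (by linarith) (by linarith)
    have h2 : l top < z x - δ := by linarith [min_le_right (ε / 2) ((z x - l top) / 2)]
    have g1 := G_strictAnti hc ht hl m (mem_Ioi.2 (by linarith : l top < z x + δ)) (by linarith)
    have g2 := G_strictAnti hc ht hl (mem_Ioi.2 h2) m (by linarith)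
    rw [e] at g1 g2
    have g0 := G_pos hc ht hl (by linarith : l top < z x + δ)
    refine ⟨min (x - G c l (z x + δ)) (G c l (z x - δ) - x),
      lt_min (by linarith) (by linarith), fun y hy => ?_⟩
    rw [Real.dist_eq, abs_lt] at hy
    have q1 : G c l (z x + δ) < y := by linarith [min_le_left (x - G c l (z x + δ)) (G c l (z x - δ) - x)]
    have q2 : y < G c l (z x - δ) := by linarith [min_le_right (x - G c l (z x + δ)) (G c l (z x - δ) - x)]
    obtain ⟨my, ey⟩ := hz y (g0.trans q1)
    have r1 : z y < z x + δ := by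
      by_contra h; push Not at h
      have := (G_strictAnti hc ht hl).antitoneOn (mem_Ioi.2 (by linarith : l top < z x + δ)) my h
      rw [ey] at this; linarith
    have r2 : z x - δ < z y := by
      by_contra h; push Not at h
      have := (G_strictAnti hc ht hl).antitoneOn my (mem_Ioi.2 h2) h
      rw [ey] at this; linarith
    rw [Real.dist_eq, abs_lt]
    constructor <;> linarith [min_le_left (ε / 2) ((z x - l top) / 2)]
  exact ((hasDerivAt_G hl (hz x hx).1).of_local_left_inverse hcont
    (neg_ne_zero.2 (G2_pos hc ht (hz x hx).1).ne')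
    (Filter.eventually_of_mem (Ioi_mem_nhds hx) fun y hy => (hz y hy).2)).congr_deriv (by rw [inv_neg])

include hc ht hl in
lemma hasDerivAt_fval {z : ℝ → ℝ} (hz : ∀ x, 0 < x → l top < z x ∧ G c l (z x) = x) {x : ℝ}
    (hx : 0 < x) : HasDerivAt (fval c l z) (z x - x⁻¹) x := by
  have hd := hasDerivAt_z hc ht hl hz hx
  have hs : HasDerivAt (fun y => ∑ k, c k * Real.log (z y - l k))
      (x * -(G2 c l (z x))⁻¹) x := by
    have := HasDerivAt.fun_sum (u := Finset.univ) fun k _ =>
      (((hd.sub_const (l k)).log (by linarith [hl k, (hz x hx).1])).const_mul (c k))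
    refine this.congr_deriv ?_
    generalize G2 c l (z x) = W
    conv_rhs => rw [← (hz x hx).2]
    rw [G, Finset.sum_mul]
    exact Finset.sum_congr rfl fun k _ => by ring
  refine (((((hasDerivAt_id' x).mul hd).sub hs).sub_const 1).sub
    (Real.hasDerivAt_log hx.ne')).congr_deriv ?_
  ring

end Vale.Agent.P166.Haar2.RTransform
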