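import Vale.Agent.P166.Haar2.Alg
import Vale.Agent.P166.Press
import Vale.Agent.P157.Parisi.System
import Vale.Agent.P157.Full.Statements
import Vale.Agent.P168.Limit.Gibbs

/-!
Perturbed systems in Haar position over random bases.
-/

noncomputable section

open MeasureTheory ProbabilityTheory
open scoped BigOperators

namespace Vale.Agent.P166.Haar2

open Vale.Agent.P157 (gam)
open Vale.Agent.P157.Parisi (Cube IsPath Path scale unitVec)
open Vale.Agent.P168 (Shape shapeProb genNested)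
open Vale.Agent.P168.Limit (logZ gav rav)

/-- Eigenvalues, feature blocks, and the number dividing block overlaps. -/
structure Sys (N G : ℕ) where
  lam : Fin N → ℝ
  S : Fin G → Finset (Fin N)
  ν : ℝ

/-- The rotated configuration. -/
def rot {N : ℕ} (U : OG N) (σ : Cube N) : Fin N → ℝ := act U (spin σ)

/-- The overlap of block `g`. -/
def Sys.ov {N G : ℕ} (P : Sys N G) (U : OG N) (g : Fin G) (σ τ : Cube N) : ℝ :=
  (∑ i ∈ P.S g, rot U σ i * rot U τ i) / P.ν

/-- All block overlaps of replicas. -/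
def Sys.ovs {N G n : ℕ} (P : Sys N G) (U : OG N) (σ : Fin n → Cube N) :
    Fin G → Fin n → Fin n → ℝ :=
  fun g a b => P.ov U g (σ a) (σ b)

/-- The exponents of the `i`-th monomial. -/
def mexp (G i : ℕ) : Fin G → ℕ := (Encodable.decode (α := Fin G → ℕ) i).getD fun _ => 0

/-- Its coefficient. -/
def coef (G i : ℕ) : ℝ := (1 / 2) ^ (i + 1) / (1 + (∑ g, mexp G i g : ℕ) : ℝ)

/-- The word positions of a monomial. -/
abbrev Word (G i : ℕ) := (g : Fin G) × Fin (mexp G i g)

/-- Coordinates of the perturbation. -/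
abbrev PIdx (G N L : ℕ) := (i : Fin L) × (Word G i.val → Fin N)

/-- One coordinate of a monomial feature. -/
def Sys.feat {N G L : ℕ} (P : Sys N G) (U : OG N) (σ : Cube N) (c : PIdx G N L) : ℝ :=
  ∏ p : Word G c.1.val, if c.2 p ∈ P.S p.1 then rot U σ (c.2 p) / Real.sqrt P.ν else 0

/-- The perturbation. -/
def Sys.pert {N G L : ℕ} (P : Sys N G) (s : ℝ) (x : Fin L → ℝ) (U : OG N)
    (J : PIdx G N L → ℝ) (σ : Cube N) : ℝ :=
  ∑ c : PIdx G N L, J c * (s * x c.1 * coef G c.1.val * P.feat U σ c)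

/-- The energy with the perturbation. -/
def Sys.ham0 {N G L : ℕ} (P : Sys N G) (s : ℝ) (x : Fin L → ℝ) (U : OG N)
    (J : PIdx G N L → ℝ) (σ : Cube N) : ℝ :=
  1 / 2 * (∑ i, P.lam i * rot U σ i ^ 2) + P.pert s x U J σ

/-- Random log-weights of the configurations, independent of the rotation. -/
structure RBase (N : ℕ) where
  Ω : Type
  mΩ : MeasurableSpace Ω
  law : @Measure Ω mΩ
  lw : Ω → Cube N → ℝ
  prob : @IsProbabilityMeasure Ω mΩ law
  meas : ∀ σ, @Measurable Ω ℝ mΩ _ fun ω => lw ω σ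
  bd : ℝ
  le_bd : ∀ ω σ, |lw ω σ| ≤ bd

attribute [instance] RBase.mΩ RBase.prob

/-- The uniform base. -/
def unifBase (N : ℕ) : RBase N where
  Ω := Unit
  mΩ := inferInstance
  law := Measure.dirac ()
  lw _ _ := -(N * Real.log 2)
  prob := inferInstance
  meas _ := measurable_const
  bd := N * Real.log 2
  le_bd _ _ := by
    rw [abs_neg, abs_of_nonneg (mul_nonneg N.cast_nonneg (Real.log_nonneg one_le_two))]

/-- The configuration as an element of the family of cube points. -/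
def toConf {N : ℕ} (σ : Cube N) : Vale.Agent.P157.Parisi.Sphere.Conf (Vale.Agent.P157.Parisi.Full.cubePts N) :=
  Fintype.equivFin (Cube N) σ

/-- The configuration of a cube point. -/
def ofConf {N : ℕ} (k : Vale.Agent.P157.Parisi.Sphere.Conf (Vale.Agent.P157.Parisi.Full.cubePts N)) :
    Cube N :=
  (Fintype.equivFin (Cube N)).symm k

/-- A base on the family of cube points as a base on the cube. -/
def RBase.ofBase {N : ℕ}
    (B : Vale.Agent.P157.Parisi.Full.Base (Vale.Agent.P157.Parisi.Full.cubePts N)) : RBase N where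
  Ω := B.Ω
  mΩ := B.mΩ
  law := B.law
  lw ω σ := Real.log (B.v ω (toConf σ))
  prob := B.prob
  meas σ := (B.meas (toConf σ)).log
  bd := B.bd
  le_bd ω σ := B.le_bd ω (toConf σ)

/-- The disorder. -/
abbrev Dz {N : ℕ} (G L : ℕ) (B : RBase N) := OG N × (PIdx G N L → ℝ) × B.Ω

/-- Its law. -/
def dzLaw {N : ℕ} (G L : ℕ) (B : RBase N) : Measure (Dz G L B) :=
  (orthHaar N).prod ((gam (PIdx G N L)).prod B.law)

variable {N G L : ℕ}

/-- The Hamiltonian. -/
def Sys.ham (P : Sys N G) (s : ℝ) (x : Fin L → ℝ) (B : RBase N) (z : Dz G L B) (σ : Cube N) : ℝ :=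
  B.lw z.2.2 σ + P.ham0 s x z.1 z.2.1 σ

/-- The free energy. -/
def Sys.free (P : Sys N G) (s : ℝ) (x : Fin L → ℝ) (B : RBase N) : ℝ :=
  ∫ z, logZ (P.ham s x B z) ∂dzLaw G L B

/-- The mean absolute deviation of the free energy. -/
def Sys.dev (P : Sys N G) (s : ℝ) (x : Fin L → ℝ) (B : RBase N) : ℝ :=
  ∫ z, |logZ (P.ham s x B z) - P.free s x B| ∂dzLaw G L B

/-- The mean of a function of the block overlaps of `n` replicas. -/
def Sys.ovMean (P : Sys N G) (s : ℝ) (x : Fin L → ℝ) (B : RBase N) (n : ℕ)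
    (F : (Fin G → Fin n → Fin n → ℝ) → ℝ) : ℝ :=
  ∫ z, rav n (P.ham s x B z) (fun σ => F (P.ovs z.1 σ)) ∂dzLaw G L B

/-- The mean logarithm of the average of a positive weight. -/
def Sys.lavg (P : Sys N G) (s : ℝ) (x : Fin L → ℝ) (B : RBase N) (Y : OG N → Cube N → ℝ) : ℝ :=
  ∫ z, Real.log (gav (P.ham s x B z) (Y z.1)) ∂dzLaw G L B

/-- The standard blocks: all coordinates, and one block for each atom. -/
def stdSys {K : ℕ} (a : Fin (K + 1) → ℝ) (w : Fin N → Fin (K + 1)) : Sys N (K + 2) where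
  lam i := a (w i)
  S := Fin.cons Finset.univ fun k => Finset.univ.filter fun i => w i = k
  ν := N

/-- The fraction of coordinates of block `k`. -/
def frac {K : ℕ} (w : Fin N → Fin (K + 1)) (k : Fin (K + 1)) : ℝ :=
  ((Finset.univ.filter fun i => w i = k).card : ℝ) / N

/-- The first coordinate of every block moved to the top block. -/
def promote {K : ℕ} (w : Fin N → Fin (K + 1)) (i : Fin N) : Fin (K + 1) :=
  if ∀ i' < i, w i' ≠ w i then Fin.last K else w i

/-- The strength of the shifts of the atoms. -/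
def eta (N : ℕ) : ℝ := (N : ℝ) ^ (-(1 / 8 : ℝ))

/-- The step of the difference quotients. -/
def diffStep (N : ℕ) : ℝ := (N : ℝ) ^ (-(1 / 16 : ℝ))

/-- The rate of concentration. -/
def devRate (N : ℕ) : ℝ := Real.sqrt (N * (1 + Real.log N)) + scale N + 1

/-- The shifted atoms. -/
def shifted {K : ℕ} (a : Fin (K + 1) → ℝ) (N : ℕ) (y : Fin (K + 1) → ℝ) : Fin (K + 1) → ℝ :=
  fun k => a k + eta N * y k

/-- The penalty of the parameters. -/
def pen {K : ℕ} (N : ℕ) (x : Fin L → ℝ) (y : Fin (K + 1) → ℝ) : ℝ :=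
  100 * scale N ^ 2 * ∑ i : Fin L, coef (K + 2) i.val ^ 2 * (x i - 3 / 2) ^ 2 +
    100 * (eta N * N) * ∑ k, (y k - 3 / 2) ^ 2

/-- The tolerance for nearly maximal parameters. -/
def tol (K N : ℕ) : ℝ :=
  min 1 (scale N ^ 2 * ∏ i ∈ Finset.range N, coef (K + 2) i ^ 2) / (1 + (N : ℝ) ^ 8)

/-- The penalised free energy of the unperturbed labelling. -/
def objLower {K : ℕ} (a : Fin (K + 1) → ℝ) (w : Fin N → Fin (K + 1)) (x : Fin N → ℝ)
    (y : Fin (K + 1) → ℝ) : ℝ :=
  (stdSys (shifted a N y) w).free (scale N) x (unifBase N) - pen N x y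

/-- A base obtained from field slots on a truncated cascade. -/
def slotBase {r T : ℕ} (N : ℕ) (δ a : ℝ) (m : Fin r → ℝ) (ks : Fin T → Fin (r + 1))
    (n : Fin r → ℕ) : RBase N :=
  RBase.ofBase (Vale.Agent.P157.Parisi.Full.truncBase
    (Vale.Agent.P157.Parisi.Full.cubePts N) δ a m ks n)

/-- The limiting free energy with slots. -/
def Sys.slotFree {r T : ℕ} (P : Sys N G) (s : ℝ) (x : Fin L → ℝ) (δ a : ℝ) (m : Fin r → ℝ)
    (ks : Fin T → Fin (r + 1)) : ℝ :=
  ∫ U, ∫ J, ∫ E, Vale.Agent.P157.Parisi.Sphere.Up.Phi (Vale.Agent.P157.Parisi.Full.slotLaw T N) m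
      (Vale.Agent.P157.Parisi.Full.slotW δ a ks
        (fun σ => P.ham0 s x U J (ofConf σ)) E)
    ∂Vale.Agent.P157.Parisi.Full.slotLaw T N ∂gam (PIdx G N L) ∂orthHaar N

/-- The overlap on the levels from `k` on, with slots. -/
def Sys.slotOverlap {r T : ℕ} (P : Sys N G) (s : ℝ) (x : Fin L → ℝ) (δ a : ℝ) (m : Fin r → ℝ)
    (ks : Fin T → Fin (r + 1)) (k : Fin (r + 1)) : ℝ :=
  ∫ U, ∫ J, ∫ E, Vale.Agent.P157.Parisi.Full.tailSum m
      (fun p => Vale.Agent.P157.Parisi.Sphere.Up.bVal (Vale.Agent.P157.Parisi.Full.slotLaw T N) m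
        (Vale.Agent.P157.Parisi.Full.slotW δ a ks
          (fun σ => P.ham0 s x U J (ofConf σ)) E) p) k
    ∂Vale.Agent.P157.Parisi.Full.slotLaw T N ∂gam (PIdx G N L) ∂orthHaar N

/-- The overlap matrices of all blocks along a path, on a tree. -/
def Atoms.vgram {K : ℕ} (A : Atoms K) (ξ : Path) {n : ℕ} (v : Shape ξ.r n) :
    Fin (K + 2) → Fin n → Fin n → ℝ :=
  Fin.cons (ξ.gram v) fun k a b =>
    if a = b then (A.blockEl ξ.m ξ.q k).s else (A.blockEl ξ.m ξ.q k).v (v a b)

/-- The mean of a function of all block overlaps along a path. -/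
def Atoms.treeExpV {K : ℕ} (A : Atoms K) (ξ : Path) (n : ℕ)
    (F : (Fin (K + 2) → Fin n → Fin n → ℝ) → ℝ) : ℝ :=
  ∑ v : Shape ξ.r n, shapeProb ξ.m n v * F (A.vgram ξ v)

/-- A finite family of Gaussian fields on a cascade. -/
def casField {r : ℕ} {D : Type} (P : D → El r) (g₀ : D → ℝ) (η : Fin r → D → ℝ) (e : D → ℝ)
    (j : D) : ℝ :=
  Real.sqrt ((P j).v 0) * g₀ j +
    (∑ p : Fin r, Real.sqrt ((P j).v p.succ - (P j).v p.castSucc) * η p j) +
    Real.sqrt ((P j).s - (P j).v (Fin.last r)) * e j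

/-- The mean logarithm of a weight of Gaussian fields on a cascade. -/
def cascV {r : ℕ} {D : Type} [Fintype D] (m : Fin r → ℝ) (P : D → El r) (X : (D → ℝ) → ℝ) : ℝ :=
  ∫ g₀, Real.log (genNested (gam D) m fun η => ∫ e, X (casField P g₀ η e) ∂gam D) ∂gam D

/-- The powers of the overlap path. -/
def powEl {r : ℕ} (q : Fin (r + 1) → ℝ) (k : ℕ) : El r := ⟨1, fun p => q p ^ k⟩

/-- The coordinates of a test field of degree `k`. -/
abbrev TIdx (N k : ℕ) := Fin k → Fin N

/-- The test field with covariance the `k`-th power of the overlap. -/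
def testZ {N k : ℕ} (g : TIdx N k → ℝ) (u : Cube N) : ℝ :=
  ∑ t : TIdx N k, g t * ∏ l, unitVec u (t l)

/-- The mean logarithm of a weight of `K + 1` coordinates and one test field. -/
def Sys.freshLog {K : ℕ} (P : Sys N G) (s : ℝ) (x : Fin L → ℝ) (B : RBase N) (k : ℕ)
    (coords : Fin (K + 1) → Fin N) (X : (Fin (K + 1) ⊕ Fin 1 → ℝ) → ℝ) : ℝ :=
  ∫ g, P.lavg s x B (fun U σ => X (Sum.elim (fun j => rot U σ (coords j)) fun _ => testZ g σ))
    ∂gam (TIdx N k)

/-- The demotion weight with a cosh factor and a test factor: `lin = false` puts the test field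
inside the cosh, `lin = true` outside. -/
def stepX {K : ℕ} (θ b : Fin (K + 1) → ℝ) (κ : ℝ) (lin : Bool)
    (z : Fin (K + 1) ⊕ Fin 1 → ℝ) : ℝ :=
  Real.exp (-(∑ j, θ j * z (Sum.inl j) ^ 2) / 2 - κ * z (Sum.inr 0) ^ 2 / 2 +
      if lin then Real.sqrt κ * z (Sum.inr 0) else 0) *
    Real.cosh ((∑ j, b j * z (Sum.inl j)) + if lin then 0 else Real.sqrt κ * z (Sum.inr 0))

/-- The perturbed pressure of `N + 1` sites, not divided by `N + 1`, with the strengths of `N`
sites and a test field on the first `N` sites. -/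
def testFree {K : ℕ} (a : Fin (K + 1) → ℝ) (w : Fin (N + 1) → Fin (K + 1)) (x : Fin N → ℝ)
    (k : ℕ) (κ : ℝ) (lin : Bool) : ℝ :=
  (stdSys a w).free (scale N) x (unifBase (N + 1)) +
    ∫ g, (stdSys a w).lavg (scale N) x (unifBase (N + 1)) (fun _ σ =>
      Real.exp (Real.sqrt κ * (if lin then 1 else if σ (Fin.last N) then 1 else -1) *
          testZ g (fun i => σ i.castSucc) -
        κ * testZ g (fun i => σ i.castSucc) ^ 2 / 2)) ∂gam (TIdx N k)

end Vale.Agent.P166.Haar2
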