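import Vale.Agent.P166.Haar2.Sys
import Vale.Agent.P166.Seq
import Vale.Agent.P168.Limit.GibbsLemmas
import Vale.Agent.P168.Limit.Toolkit

/-!
Measurability, integrability and the crude comparisons of perturbed systems.
-/

noncomputable section

open MeasureTheory ProbabilityTheory
open scoped BigOperators

namespace Vale.Agent.P166.Haar2

open Vale.Agent.P157 (gam)
open Vale.Agent.P157.Parisi (Cube)
open Vale.Agent.P168.Limit (logZ gav abs_logZ_sub_le sum_exp_pos)

variable {N G L : ℕ}

instance (B : RBase N) : IsProbabilityMeasure (dzLaw G L B) := by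
  unfold dzLaw; infer_instance

lemma continuous_rot (σ : Cube N) (i : Fin N) : Continuous fun U : OG N => rot U σ i :=
  (continuous_apply i).comp (continuous_act (spin σ))

lemma sum_rot_sq (U : OG N) (σ : Cube N) : ∑ i, rot U σ i ^ 2 = N := by
  have h := act_dot U (spin σ) (spin σ)
  rw [spin_dot] at h
  simpa [dotProduct, sq, rot] using h

lemma rot_sq_le (U : OG N) (σ : Cube N) (i : Fin N) : rot U σ i ^ 2 ≤ N := by
  rw [← sum_rot_sq U σ]
  exact Finset.single_le_sum (fun j _ => sq_nonneg (rot U σ j)) (Finset.mem_univ i)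

lemma abs_rot_le (U : OG N) (σ : Cube N) (i : Fin N) : |rot U σ i| ≤ Real.sqrt N :=
  Real.abs_le_sqrt (rot_sq_le U σ i)

lemma sum_block_le (U : OG N) (σ : Cube N) (S : Finset (Fin N)) :
    ∑ i ∈ S, rot U σ i ^ 2 ≤ N := by
  rw [← sum_rot_sq U σ]
  exact Finset.sum_le_sum_of_subset_of_nonneg (Finset.subset_univ S) fun i _ _ => sq_nonneg _

/-- The largest value of one feature. -/
def featBd (P : Sys N G) (c : PIdx G N L) : ℝ :=
  ∏ _p : Word G c.1.val, Real.sqrt N / Real.sqrt P.ν

lemma continuous_feat (P : Sys N G) (σ : Cube N) (c : PIdx G N L) :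
    Continuous fun U : OG N => P.feat U σ c := by
  unfold Sys.feat
  refine continuous_finsetProd _ fun p _ => ?_
  split_ifs
  · exact (continuous_rot σ _).div_const _
  · exact continuous_const

lemma abs_feat_le (P : Sys N G) (U : OG N) (σ : Cube N) (c : PIdx G N L) :
    |P.feat U σ c| ≤ featBd P c := by
  rw [Sys.feat, featBd, Finset.abs_prod]
  refine Finset.prod_le_prod (fun p _ => abs_nonneg _) fun p _ => ?_
  split_ifs
  · rw [abs_div, abs_of_nonneg (Real.sqrt_nonneg P.ν)]
    exact div_le_div_of_nonneg_right (abs_rot_le U σ _) (Real.sqrt_nonneg _)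
  · rw [abs_zero]; positivity

lemma measurable_ham0 (P : Sys N G) (s : ℝ) (x : Fin L → ℝ) (σ : Cube N) :
    Measurable fun q : OG N × (PIdx G N L → ℝ) => P.ham0 s x q.1 q.2 σ := by
  have h1 : ∀ i, Measurable fun q : OG N × (PIdx G N L → ℝ) => rot q.1 σ i := fun i =>
    (continuous_rot σ i).measurable.comp measurable_fst
  have h2 : ∀ c : PIdx G N L, Measurable fun q : OG N × (PIdx G N L → ℝ) => P.feat q.1 σ c := fun c =>
    (continuous_feat P σ c).measurable.comp measurable_fst
  unfold Sys.ham0 Sys.pert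
  exact (((Finset.measurable_sum _ fun i _ => ((h1 i).pow_const 2).const_mul _)).const_mul _).add
    (Finset.measurable_sum _ fun c _ =>
      ((measurable_pi_apply c).comp measurable_snd).mul ((h2 c).const_mul _))

lemma measurable_ham (P : Sys N G) (s : ℝ) (x : Fin L → ℝ) (B : RBase N) (σ : Cube N) :
    Measurable fun z : Dz G L B => P.ham s x B z σ := by
  have h1 : Measurable fun z : Dz G L B => B.lw z.2.2 σ :=
    Measurable.comp (g := fun w => B.lw w σ) (f := fun z : Dz G L B => z.2.2) (B.meas σ)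
      (measurable_snd.comp measurable_snd)
  have hp : Measurable fun z : Dz G L B => (z.1, z.2.1) :=
    measurable_fst.prodMk (measurable_fst.comp measurable_snd)
  have h2 : Measurable fun z : Dz G L B => P.ham0 s x z.1 z.2.1 σ :=
    Measurable.comp (g := fun q : OG N × (PIdx G N L → ℝ) => P.ham0 s x q.1 q.2 σ)
      (f := fun z : Dz G L B => (z.1, z.2.1)) (measurable_ham0 P s x σ) hp
  show Measurable fun z : Dz G L B => B.lw z.2.2 σ + P.ham0 s x z.1 z.2.1 σ
  exact h1.add h2

/-- A bound of the Hamiltonian, integrable in the disorder. -/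
def hamBd (P : Sys N G) (s : ℝ) (x : Fin L → ℝ) (B : RBase N) (z : Dz G L B) : ℝ :=
  B.bd + (1 / 2 * ∑ i, |P.lam i| * N) +
    ∑ c, |z.2.1 c| * (|s * x c.1 * coef G c.1.val| * featBd P c)

lemma abs_quad_le (P : Sys N G) (U : OG N) (σ : Cube N) :
    |∑ i, P.lam i * rot U σ i ^ 2| ≤ ∑ i, |P.lam i| * N := by
  refine (Finset.abs_sum_le_sum_abs _ _).trans (Finset.sum_le_sum fun i _ => ?_)
  rw [abs_mul, abs_of_nonneg (sq_nonneg (rot U σ i))]
  exact mul_le_mul_of_nonneg_left (rot_sq_le U σ i) (abs_nonneg _)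

lemma abs_pert_le (P : Sys N G) (s : ℝ) (x : Fin L → ℝ) (U : OG N) (J : PIdx G N L → ℝ)
    (σ : Cube N) :
    |P.pert s x U J σ| ≤ ∑ c, |J c| * (|s * x c.1 * coef G c.1.val| * featBd P c) := by
  refine (Finset.abs_sum_le_sum_abs _ _).trans (Finset.sum_le_sum fun c _ => ?_)
  rw [abs_mul, abs_mul]
  exact mul_le_mul_of_nonneg_left
    (mul_le_mul_of_nonneg_left (abs_feat_le P U σ c) (abs_nonneg _)) (abs_nonneg _)

lemma abs_ham_le (P : Sys N G) (s : ℝ) (x : Fin L → ℝ) (B : RBase N) (z : Dz G L B)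
    (σ : Cube N) : |P.ham s x B z σ| ≤ hamBd P s x B z := by
  have h1 := B.le_bd z.2.2 σ
  have h2 := abs_quad_le P z.1 σ
  have h3 := abs_pert_le P s x z.1 z.2.1 σ
  unfold Sys.ham Sys.ham0 hamBd
  rw [abs_le] at h1 h2 h3 ⊢
  constructor <;> linarith [h1.1, h1.2, h2.1, h2.2, h3.1, h3.2]

lemma integrable_hamBd (P : Sys N G) (s : ℝ) (x : Fin L → ℝ) (B : RBase N) :
    Integrable (hamBd P s x B) (dzLaw G L B) := by
  have h : Integrable (fun J : PIdx G N L → ℝ =>
      ∑ c, |J c| * (|s * x c.1 * coef G c.1.val| * featBd P c)) (gam (PIdx G N L)) :=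
    integrable_finsetSum _ fun c _ =>
      (Vale.Agent.P168.Toolkit.integrable_eval_gaussPi c).abs.mul_const _
  exact (integrable_const _).add ((h.comp_fst B.law).comp_snd (orthHaar N))

lemma integrable_ham (P : Sys N G) (s : ℝ) (x : Fin L → ℝ) (B : RBase N) (σ : Cube N) :
    Integrable (fun z => P.ham s x B z σ) (dzLaw G L B) :=
  (integrable_hamBd P s x B).mono' (measurable_ham P s x B σ).aestronglyMeasurable
    (Filter.Eventually.of_forall fun z => abs_ham_le P s x B z σ)

lemma measurable_logZ (P : Sys N G) (s : ℝ) (x : Fin L → ℝ) (B : RBase N) :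
    Measurable fun z : Dz G L B => logZ (P.ham s x B z) :=
  (Finset.measurable_sum _ fun σ _ => (measurable_ham P s x B σ).exp).log

lemma abs_logZ_le (P : Sys N G) (s : ℝ) (x : Fin L → ℝ) (B : RBase N) (z : Dz G L B) :
    |logZ (P.ham s x B z)| ≤ |logZ (fun _ : Cube N => (0 : ℝ))| + hamBd P s x B z := by
  have h := abs_logZ_sub_le (fun _ : Cube N => (0 : ℝ)) (P.ham s x B z)
    fun σ => abs_ham_le P s x B z σ
  simp only [zero_add] at h
  linarith [abs_sub_abs_le_abs_sub (logZ (P.ham s x B z)) (logZ fun _ : Cube N => (0 : ℝ))]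

lemma integrable_logZ (P : Sys N G) (s : ℝ) (x : Fin L → ℝ) (B : RBase N) :
    Integrable (fun z => logZ (P.ham s x B z)) (dzLaw G L B) :=
  (((integrable_const _).add (integrable_hamBd P s x B))).mono'
    (measurable_logZ P s x B).aestronglyMeasurable
    (Filter.Eventually.of_forall fun z => by
      simpa [Real.norm_eq_abs] using abs_logZ_le P s x B z)

/-- Systems differing by at most a constant have free energies differing by at most it. -/
lemma free_le_add (P P' : Sys N G) (s : ℝ) (x x' : Fin L → ℝ) (B : RBase N) (c : ℝ)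
    (h : ∀ z σ, P.ham s x B z σ ≤ P'.ham s x' B z σ + c) :
    P.free s x B ≤ P'.free s x' B + c := by
  have h0 : ∀ z, logZ (P.ham s x B z) ≤ logZ (P'.ham s x' B z) + c := by
    intro z
    have e : logZ (fun σ => P'.ham s x' B z σ + c) = logZ (P'.ham s x' B z) + c := by
      unfold logZ
      simp only [Real.exp_add, ← Finset.sum_mul]
      rw [Real.log_mul (sum_exp_pos _).ne' (Real.exp_pos c).ne', Real.log_exp]
    rw [← e]
    exact Real.log_le_log (sum_exp_pos _) (Finset.sum_le_sum fun σ _ => Real.exp_le_exp.2 (h z σ))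
  calc P.free s x B ≤ ∫ z, (logZ (P'.ham s x' B z) + c) ∂dzLaw G L B :=
        integral_mono (integrable_logZ P s x B)
          ((integrable_logZ P' s x' B).add (integrable_const c)) h0
    _ = P'.free s x' B + c := by
        rw [integral_add (integrable_logZ P' s x' B) (integrable_const c)]
        simp [Sys.free]

/-- The free energy is monotone and `N / 2`-Lipschitz in the eigenvalues. -/
lemma free_lam_le (P P' : Sys N G) (hS : P.S = P'.S) (hν : P.ν = P'.ν) (s : ℝ) (x : Fin L → ℝ)
    (B : RBase N) {c : ℝ} (h : ∀ i, P.lam i ≤ P'.lam i + c) :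
    P.free s x B ≤ P'.free s x B + N * c / 2 := by
  refine free_le_add P P' s x x B _ fun z σ => ?_
  have e : P.pert s x z.1 z.2.1 σ = P'.pert s x z.1 z.2.1 σ := by
    simp only [Sys.pert, Sys.feat, hS, hν]
  have hq : ∑ i, P.lam i * rot z.1 σ i ^ 2 ≤ (∑ i, P'.lam i * rot z.1 σ i ^ 2) + N * c := by
    rw [← sum_rot_sq z.1 σ, Finset.sum_mul, ← Finset.sum_add_distrib]
    refine Finset.sum_le_sum fun i _ => ?_
    nlinarith [mul_le_mul_of_nonneg_right (h i) (sq_nonneg (rot z.1 σ i))]
  simp only [Sys.ham, Sys.ham0, e]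
  linarith

/-- Without perturbation the free energy over the uniform base is `N` times the pressure. -/
lemma free_unif_zero (P : Sys N G) (hN : 0 < N) (s : ℝ) :
    P.free s (fun _ : Fin L => (0 : ℝ)) (unifBase N) = N * meanP 1 P.lam := by
  have key : ∀ z : Dz G L (unifBase N),
      logZ (P.ham s (fun _ : Fin L => (0 : ℝ)) (unifBase N) z) = N * pressure 1 P.lam z.1 := by
    intro z
    have hN' : (N : ℝ) ≠ 0 := by exact_mod_cast hN.ne'
    rw [pressure_eq, mul_div_cancel₀ _ hN', part]
    unfold logZ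
    rw [Real.log_pow]
    have e : ∀ σ : Cube N, Real.exp (P.ham s (fun _ : Fin L => (0 : ℝ)) (unifBase N) z σ) =
        Real.exp (-(N * Real.log 2)) * Real.exp (1 / 2 * en P.lam z.1 σ) := by
      intro σ
      rw [← Real.exp_add, en_eq]
      simp [Sys.ham, Sys.ham0, Sys.pert, unifBase, rot]
    rw [Finset.sum_congr rfl fun σ _ => e σ, ← Finset.mul_sum,
      Real.log_mul (Real.exp_pos _).ne' (sum_exp_pos _).ne', Real.log_exp]
    ring
  simp only [Sys.free, key, integral_const_mul]
  rw [dzLaw, integral_fun_fst, probReal_univ, one_smul]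
  rfl

lemma continuous_ov (P : Sys N G) (g : Fin G) (σ τ : Cube N) :
    Continuous fun U : OG N => P.ov U g σ τ :=
  (continuous_finsetSum _ fun i _ => (continuous_rot σ i).mul (continuous_rot τ i)).div_const _

lemma abs_ov_le (P : Sys N G) (hν : (N : ℝ) ≤ P.ν) (U : OG N) (g : Fin G) (σ τ : Cube N) :
    |P.ov U g σ τ| ≤ 1 := by
  have hN : (0 : ℝ) ≤ N := N.cast_nonneg
  rw [Sys.ov, abs_div, abs_of_nonneg (hN.trans hν)]
  refine div_le_one_of_le₀ (le_trans ?_ hν) (hN.trans hν)
  have h1 := sum_block_le U σ (P.S g)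
  have h2 := sum_block_le U τ (P.S g)
  refine (Finset.abs_sum_le_sum_abs _ _).trans ?_
  have h3 : ∀ i ∈ P.S g, |rot U σ i * rot U τ i| ≤ rot U σ i ^ 2 / 2 + rot U τ i ^ 2 / 2 := by
    intro i _
    rw [abs_le]
    constructor <;> nlinarith [sq_nonneg (rot U σ i - rot U τ i), sq_nonneg (rot U σ i + rot U τ i)]
  refine (Finset.sum_le_sum h3).trans ?_
  rw [Finset.sum_add_distrib, ← Finset.sum_div, ← Finset.sum_div]
  linarith

lemma measurable_gav (P : Sys N G) (s : ℝ) (x : Fin L → ℝ) (B : RBase N)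
    (Y : Dz G L B → Cube N → ℝ) (hY : ∀ σ, Measurable fun z => Y z σ) :
    Measurable fun z : Dz G L B => gav (P.ham s x B z) (Y z) :=
  Finset.measurable_sum _ fun σ _ => ((measurable_ham P s x B σ).exp.div
    (Finset.measurable_sum _ fun τ _ => (measurable_ham P s x B τ).exp)).mul (hY σ)

end Vale.Agent.P166.Haar2
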