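import Mathlib
import Vale.Agent.P157.Parisi.Defs
import Vale.Agent.P157.Full.Defs

/-!
The limiting pressure of orthogonally invariant Ising couplings: the continued R-transform, the
energy functional of an overlap path, and the variational value.
-/

noncomputable section

open MeasureTheory
open scoped BigOperators

namespace Vale.Agent.P166.Haar2

open Vale.Agent.P157.Parisi (IsPath siteValue weight)
open Vale.Agent.P157.Parisi.Full (IsFieldPath)

/-- The inverse of the Stieltjes transform of `μ`, continued by the right edge of the support: the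
smallest `z` above the support with `∫ (z - λ)⁻¹ dμ ≤ x`. -/
def invStieltjes (μ : Measure ℝ) (x : ℝ) : ℝ :=
  sInf {z : ℝ | sSup μ.support < z ∧ ∫ l, (z - l)⁻¹ ∂μ ≤ x}

/-- The R-transform of `μ` continued past saturation, with value the mean at `0`. -/
def RT (μ : Measure ℝ) (x : ℝ) : ℝ :=
  if x ≤ 0 then ∫ l, l ∂μ else invStieltjes μ x - x⁻¹

/-- For an overlap path `(m, q)`: `u ↦ ∫_u^1 x(s) ds`, with `x` the distribution function of the
overlap (`x = 0` below `q 0`, `m i` between `q i` and `q (i + 1)`, `1` above the last value). -/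
def dfun {r : ℕ} (m : Fin r → ℝ) (q : Fin (r + 1) → ℝ) (u : ℝ) : ℝ :=
  (1 - max u (q (Fin.last r))) +
    ∑ i : Fin r, m i * (max u (q i.succ) - max u (q i.castSucc))

/-- The energy functional: `(β/2) ∫_0^1 R_μ (β ∫_u^1 x) du`. -/
def funG (β : ℝ) (μ : Measure ℝ) {r : ℕ} (m : Fin r → ℝ) (q : Fin (r + 1) → ℝ) : ℝ :=
  β / 2 * ∫ u in (0 : ℝ)..1, RT μ (β * dfun m q u)

/-- The entropy side of the functional: the site part at the field path and the pairing. -/
def pairTerm {r : ℕ} (m : Fin r → ℝ) (q ρ : Fin (r + 1) → ℝ) : ℝ :=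
  siteValue m ρ + 1 / 2 * ∑ p, weight m p * ρ p * q p

/-- The numbers lying above the functional at some overlap path, for every field path. -/
def upperValues (β : ℝ) (μ : Measure ℝ) : Set ℝ :=
  {v | ∃ (r : ℕ) (m : Fin r → ℝ) (q : Fin (r + 1) → ℝ), IsPath m q ∧
    ∀ ρ : Fin (r + 1) → ℝ, IsFieldPath m ρ → funG β μ m q + pairTerm m q ρ ≤ v}

/-- The variational value: the infimum over overlap paths of the supremum over field paths. -/
def ell (β : ℝ) (μ : Measure ℝ) : ℝ := sInf (upperValues β μ)

end Vale.Agent.P166.Haar2
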